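import Vale.Agent.P241.Bdl.B2

open Vale.Agent.P241.F

theorem Vale.Agent.Results.P241.FixedPointLoss.result (p : ℕ) [Fact p.Prime] (K : ℕ → Homology)
    (T : ℕ → Tel p) (B : ℕ → FiniteGrp → Homology)
    (h₁ : ∀ A : FiniteGrp, IsPGroup p A → IsMulCommutative A → ∀ n r,
      Smith (K (n + r)) (K n) (⊥ : Subgroup A) ↔ Group.rank A ≤ r)
    (h₂ : ∀ t V (X : GCx V), X.IsFin → (K (t + 1)).Acyclic X.toBSS → FixAcyclic (B t V) X ⊤)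
    (h₃ : ∀ t V (Y : BSS), ¬ (T t).Dead V → (B t V).Acyclic Y → (K 0).Acyclic Y)
    (h₄ : ∀ t V (Y : BSS), Y.IsFin → ¬ (B t V).Acyclic Y → ∃ j, ¬ (K j).Acyclic Y ∧
      ∀ A : FiniteGrp, IsPGroup p A → IsMulCommutative A → Group.rank A ≤ j →
        ¬ (T t).Dead (.of (V × A)))
    (h₅ : ∀ W : FiniteGrp, IsPGroup p W → ∀ (S : GCx W) r, S.IsFin →
      (∀ V : Subgroup W, V ≠ ⊥ → ∀ t < r, FixAcyclic (B t (.of V)) S V) → Attachable K r S)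
    (G : FiniteGrp) (hG : IsPGroup p G) (H : Subgroup G) (n r : ℕ) :
    Smith (K (n + r)) (K n) H ↔ ell H ≤ r :=
  main p K T B h₁ h₂ h₃ h₄ h₅ G hG H n r
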