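import Vale.Agent.P241.Bdl.B1

open Vale.Agent.P241.Lite

theorem Vale.Agent.Results.P241.SmithLoss.result (K : ℕ → Homology) :
    (∀ (L G : Type) [Group L] [Group G] [Finite L] [Finite G] (φ : L →* G) (H : Subgroup G)
      (n : ℕ), loss K n (H.comap φ) ≤ loss K n H) ∧
    ∀ (p : ℕ) [Fact p.Prime], AbelianValues p K →
      (∀ n, Conj p K n → Conj p K (n + 1)) ∧
      ∀ (G : Type) [Group G] [Finite G], IsPGroup p G → ∀ (H : Subgroup G) (n : ℕ),
        loss K n H ≤ cycLen H ⊤ ∧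
        (∀ (L V : Type) [Group L] [Finite L] [CommGroup V] [Finite V] (φ : L →* G) (ψ : L →* V),
          IsPGroup p V → Function.Surjective ψ → (∀ x, φ x ∈ H → ψ x = 1) →
          Group.rank V ≤ loss K n H ∧
            (H.index = p ^ Group.rank V →
              loss K n H = cycLen H ⊤ ∧ cycLen H ⊤ = Group.rank V)) ∧
        (H.Normal → (∀ (Q : Type) [Group Q] [Finite Q] (f : G →* Q), Function.Surjective f →
          Nat.card Q = p ^ 3 → (∀ x : Q, x ^ p = 1) →
            (∀ x y : Q, x * y = y * x) ∨ 3 ≤ loss K n (⊥ : Subgroup Q)) →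
          (min 3 (cycLen H ⊤) : ℕ) ≤ loss K n H) := by
  refine ⟨fun L G _ _ _ _ φ H n => loss_comap_le φ H n, ?_⟩
  intro p _ hab
  have hcyc := cyclic_of_abelian hab
  refine ⟨fun n h => h.succ hcyc, ?_⟩
  intro G _ _ hG H n
  refine ⟨loss_le_cycLen hcyc hG H n, ?_, fun _ hQ => min_le_loss hab hG H n hQ⟩
  intro L V _ _ _ _ φ ψ hV hψ h
  exact ⟨rank_le_loss hab n hV φ ψ hψ h, loss_eq hcyc hab hG n hV φ ψ hψ h⟩
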